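import Vale.Agent.P268.T.H266.Prof

/-!
# P268, topological half, route V: the level step, second form

The path of the level step switches off the window over the first `a + 1` turns of `y`; its end is
literally the gate form `B + Gam a (lam * (cy T a y * ‖y‖)) z`.
-/

set_option linter.unusedSectionVars false

namespace Vale.Agent.P268.T.RV

open Set Filter Topology

/-- Window function of `y` (`T` turns): `0` on the first `a + 1` turns and the neighbouring parts of
the rests, `1` on the other turns; the ramps are in the middle of the rests `a + 1` and `T`. -/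
noncomputable def cy (T a : ℕ) (y : ℂ) : ℝ :=
  clamp01 (2 * (pos T y - (2 * a + 2) - 1 / 4)) - clamp01 (2 * (pos T y - 2 * T - 1 / 4))

/-- The size of the window part at time `t`. -/
noncomputable def bw (T a : ℕ) (lam t : ℝ) (y z : ℂ) : ℝ :=
  min (lam * (((1 - t) + t * cy T a y) * ‖y‖)) ‖z‖

/-- The link of the level step. -/
noncomputable def lkw (T a : ℕ) (lam t : ℝ) (y z : ℂ) : ℂ :=
  ((‖z‖ - bw T a lam t y z : ℝ) : ℂ) * eI (Vph a z) +
    ((bw T a lam t y z : ℝ) : ℂ) * eI (Lam a (Sph T y) (Vph a z))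

/-- The gate: `q ≥ 0` closes the last turn of `z`. -/
noncomputable def Gam (a : ℕ) (q : ℝ) (z : ℂ) : ℂ :=
  ((‖z‖ - min q ‖z‖ : ℝ) : ℂ) * eI (Vph a z) +
    ((min q ‖z‖ : ℝ) : ℂ) * eI (min (Vph a z) ((2 * a + 1) * Real.pi))

variable {E : Type*} [NormedAddCommGroup E] [NormedSpace ℝ E]

/-- The path of the level step: `B` on `E × ℂ` (last variable `y`), new variable `z`. -/
noncomputable def levw (T a : ℕ) (B : E × ℂ → ℂ) (lam t : ℝ) (p : (E × ℂ) × ℂ) : ℂ :=
  B p.1 + lkw T a lam t p.1.2 p.2

/-- Induction hypothesis of route V: `B` is tame, and over the first `N` turns of `y` (and all the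
rests next to them) it is `B (X, 0) + |y| e^{iS(y)}`. -/
structure IHw (T N : ℕ) (L : ℝ) (B : E × ℂ → ℂ) : Prop where
  le : N ≤ T
  tame : Tame (univ : Set Unit) L (fun _ => B)
  cone : ∀ (X : E) (y : ℂ), pos T y ≤ 2 * N + 1 ∨ 2 * T ≤ pos T y →
    B (X, y) = B (X, 0) + ((‖y‖ : ℝ) : ℂ) * eI (Sph T y)

end Vale.Agent.P268.T.RV
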