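import Vale.Agent.P268.T.H266.Assemble
import Vale.Agent.P268.T.H128.IndW

/-!
# P268, topological half, route V: the case lemmas of the level step
-/

set_option linter.unusedSectionVars false

namespace Vale.Agent.P268.T.RV

open Set Filter Topology

/-- The case lemmas of the level step. -/
def LevCases : Prop :=
  ∀ (E : Type) [NormedAddCommGroup E] [NormedSpace ℝ E] [FiniteDimensional ℝ E]
    (T N a : ℕ) (L : ℝ) (B : E × ℂ → ℂ), IHw T N L B → a + 1 ≤ N →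
    ∃ lam₁ : ℝ, ∀ lam ≥ lam₁, ∀ t₀ ∈ Icc (0 : ℝ) 1,
      (∀ x₀ : E × ℂ, x₀ ≠ 0 → 0 ≤ (B x₀).re →
        RegAt (Icc (0 : ℝ) 1 ×ˢ (univ : Set ℂ))
          (fun (p : ℝ × ℂ) x => levw T a B lam p.1 (x, p.2)) (t₀, 0) x₀) ∧
      (∀ (x₀ : E × ℂ) (z₀ : ℂ), z₀ ≠ 0 → 0 ≤ (levw T a B lam t₀ (x₀, z₀)).re →
        RegAt (Icc (0 : ℝ) 1) (fun t => levw T a B lam t) t₀ (x₀, z₀))

end Vale.Agent.P268.T.RV
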