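import Vale.Agent.P268.T.H594.Lift
import Vale.Agent.P268.T.H548.Tail

/-!
# P268, topological half, route V: the frozen definitions of the level step

Profiles `prof T` (with `T` turns and rests at every odd multiple of `π`), the phases `Vph`, `Sph`
and `Lam`, the level functions `lev`, and the induction hypothesis `IH`.
-/

set_option linter.unusedSectionVars false

namespace Vale.Agent.P268.T.RV

open Set Filter Topology

/-- Clamp to `[0,1]`. -/
noncomputable def clamp01 (s : ℝ) : ℝ := max 0 (min s 1)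

/-- Angular position in `[0, 2T+1]` of the angle `θ ∈ [-π, π]`; rest `k` is `[2k, 2k+1]`
(`0 ≤ k ≤ T`), turn `k` is `[2k+1, 2k+2]` (`0 ≤ k < T`). -/
noncomputable def xc (T : ℕ) (θ : ℝ) : ℝ := (θ + Real.pi) * (2 * T + 1) / (2 * Real.pi)

/-- Profile function with `T` turns: from `π` at `θ = -π` to `(2T+1)π` at `θ = π`, with rests at
every odd multiple of `π`. -/
noncomputable def prof (T : ℕ) (θ : ℝ) : ℝ :=
  Real.pi + 2 * Real.pi * ∑ k ∈ Finset.range T, clamp01 (xc T θ - (2 * k + 1))

/-- Angular position of a complex number, for `T` turns. -/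
noncomputable def pos (T : ℕ) (y : ℂ) : ℝ := xc T (Complex.arg y)

/-- `e^{ix}`. -/
noncomputable def eI (x : ℝ) : ℂ := Complex.exp (Complex.I * x)

/-- Core phase of `z`: `a + 1` turns, values in `[π, (2a+3)π]`. -/
noncomputable def Vph (a : ℕ) (z : ℂ) : ℝ := prof (a + 1) (Complex.arg z)

/-- Phase of `y` with `T` turns, values in `[-π, (2T-1)π]`. -/
noncomputable def Sph (T : ℕ) (y : ℂ) : ℝ := prof T (Complex.arg y) - 2 * Real.pi

/-- The window phase. -/
noncomputable def Lam (a : ℕ) (S V : ℝ) : ℝ :=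
  min (max (V - 2 * Real.pi) (min S (min V ((2 * a + 1) * Real.pi)))) (S + 2 * a * Real.pi)

/-- The cut-off: `1` on the last turn (`[2a+1, 2a+2]`) and the neighbouring parts of the rests,
`0` on the first `a` turns and at rest `0`. -/
noncomputable def chi (a : ℕ) (z : ℂ) : ℝ :=
  clamp01 (2 * (pos (a + 1) z - 2 * a - 1 / 4)) - clamp01 (2 * (pos (a + 1) z - 2 * a - 9 / 4))

/-- The cut-off at time `t`. -/
noncomputable def cut (a : ℕ) (t : ℝ) (z : ℂ) : ℝ := (1 - t) + t * chi a z

/-- The size of the window part. -/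
noncomputable def bb (a : ℕ) (lam t : ℝ) (y z : ℂ) : ℝ := min (lam * ‖y‖) (cut a t z * ‖z‖)

/-- The link of the level step. -/
noncomputable def lk (T a : ℕ) (lam t : ℝ) (y z : ℂ) : ℂ :=
  ((‖z‖ - bb a lam t y z : ℝ) : ℂ) * eI (Vph a z) +
    ((bb a lam t y z : ℝ) : ℂ) * eI (Lam a (Sph T y) (Vph a z))

variable {E : Type*} [NormedAddCommGroup E] [NormedSpace ℝ E]

/-- The level function: `B` on `E × ℂ` (last variable `y`), new variable `z`. -/
noncomputable def lev (T a : ℕ) (B : E × ℂ → ℂ) (lam t : ℝ) (p : (E × ℂ) × ℂ) : ℂ :=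
  B p.1 + lk T a lam t p.1.2 p.2

/-- Induction hypothesis of route V: `B` is tame, and over the first `N` turns of `y` (and the
neighbouring parts of the rests) it is `B (X, 0) + |y| e^{iS(y)}`. -/
structure IH (T N : ℕ) (L : ℝ) (B : E × ℂ → ℂ) : Prop where
  le : N ≤ T
  tame : Tame (univ : Set Unit) L (fun _ => B)
  cone : ∀ (X : E) (y : ℂ), pos T y < 2 * N + 1 / 4 ∨ 2 * T + 3 / 4 < pos T y →
    B (X, y) = B (X, 0) + ((‖y‖ : ℝ) : ℂ) * eI (Sph T y)

end Vale.Agent.P268.T.RV
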