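import Vale.Agent.P268.T.H266.Circ
import Vale.Agent.P268.T.H128.PolarLip

/-!
# P268, topological half, route V: facts on the profiles and phases
-/

set_option linter.unusedSectionVars false

namespace Vale.Agent.P268.T.RV

open Set Filter Topology

/-! ### Clamps -/

/-! ### The profile as a function of the position -/

/-- The profile as a function of the position. -/
noncomputable def pf (T : ℕ) (x : ℝ) : ℝ :=
  Real.pi + 2 * Real.pi * ∑ k ∈ Finset.range T, clamp01 (x - (2 * k + 1))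

theorem prof_eq (T : ℕ) (θ : ℝ) : prof T θ = pf T (xc T θ) := rfl

theorem pf_mono {T : ℕ} {x y : ℝ} (h : x ≤ y) : pf T x ≤ pf T y := by
  unfold pf
  have hpi := Real.pi_pos
  have : ∑ k ∈ Finset.range T, clamp01 (x - (2 * k + 1)) ≤
      ∑ k ∈ Finset.range T, clamp01 (y - (2 * k + 1)) :=
    Finset.sum_le_sum fun k _ => clamp01_mono (by linarith)
  nlinarith

theorem pf_rest {T k : ℕ} {x : ℝ} (hk : k ≤ T) (h1 : 2 * (k : ℝ) ≤ x) (h2 : x ≤ 2 * k + 1) :
    pf T x = (2 * k + 1) * Real.pi := by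
  have hs : ∑ j ∈ Finset.range T, clamp01 (x - (2 * j + 1)) = k := by
    obtain ⟨n, rfl⟩ : ∃ n, T = k + n := ⟨T - k, by omega⟩
    rw [Finset.sum_range_add]
    have e1 : ∑ j ∈ Finset.range k, clamp01 (x - (2 * j + 1)) = k := by
      rw [Finset.sum_congr rfl (g := fun _ => (1 : ℝ)) ?_]
      · simp
      · intro j hj
        have hj' : (j : ℝ) + 1 ≤ k := by exact_mod_cast Finset.mem_range.mp hj
        exact clamp01_eq_one (by linarith)
    have e2 : ∑ j ∈ Finset.range n, clamp01 (x - (2 * ((k + j : ℕ) : ℝ) + 1)) = 0 := by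
      refine Finset.sum_eq_zero fun j _ => clamp01_of_le_zero ?_
      have : (0 : ℝ) ≤ j := by positivity
      push_cast
      linarith
    rw [e1, e2, add_zero]
  rw [pf, hs]
  ring

theorem pf_le {T k : ℕ} {x : ℝ} (hk : k ≤ T) (h : x ≤ 2 * k + 1) :
    pf T x ≤ (2 * k + 1) * Real.pi := by
  rw [← pf_rest (T := T) (x := 2 * k + 1) hk (by linarith) le_rfl]
  exact pf_mono h

theorem le_pf {T k : ℕ} {x : ℝ} (hk : k ≤ T) (h : 2 * (k : ℝ) ≤ x) :
    (2 * k + 1) * Real.pi ≤ pf T x := by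
  rw [← pf_rest (T := T) (x := 2 * k) hk le_rfl (by linarith)]
  exact pf_mono h

theorem pf_turn {T k : ℕ} {x : ℝ} (hk : k < T) (h1 : 2 * (k : ℝ) + 1 ≤ x) (h2 : x ≤ 2 * k + 2) :
    pf T x = Real.pi + 2 * Real.pi * (x - k - 1) := by
  have hs : ∑ j ∈ Finset.range T, clamp01 (x - (2 * j + 1)) = x - k - 1 := by
    obtain ⟨n, rfl⟩ : ∃ n, T = (k + 1) + n := ⟨T - (k + 1), by omega⟩
    rw [Finset.sum_range_add, Finset.sum_range_succ]
    have e1 : ∑ j ∈ Finset.range k, clamp01 (x - (2 * j + 1)) = k := by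
      rw [Finset.sum_congr rfl (g := fun _ => (1 : ℝ)) ?_]
      · simp
      · intro j hj
        have hj' : (j : ℝ) + 1 ≤ k := by exact_mod_cast Finset.mem_range.mp hj
        exact clamp01_eq_one (by linarith)
    have e2 : ∑ j ∈ Finset.range n, clamp01 (x - (2 * ((k + 1 + j : ℕ) : ℝ) + 1)) = 0 := by
      refine Finset.sum_eq_zero fun j _ => clamp01_of_le_zero ?_
      have : (0 : ℝ) ≤ j := by positivity
      push_cast
      linarith
    rw [e1, e2, clamp01_eq_self (by linarith) (by linarith)]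
    ring
  rw [pf, hs]

/-! ### Positions -/

theorem pos_nonneg (T : ℕ) (y : ℂ) : 0 ≤ pos T y := by
  rw [← xc_neg_pi T]
  exact xc_mono (Complex.neg_pi_lt_arg y).le

theorem pos_le (T : ℕ) (y : ℂ) : pos T y ≤ 2 * T + 1 := by
  rw [← xc_pi T]
  exact xc_mono (Complex.arg_le_pi y)

theorem prof_neg_pi (T : ℕ) : prof T (-Real.pi) = Real.pi := by
  rw [prof_eq, xc_neg_pi, pf_rest (k := 0) (Nat.zero_le _) (by simp) (by simp)]
  simp

theorem prof_pi (T : ℕ) : prof T Real.pi = (2 * T + 1) * Real.pi := by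
  rw [prof_eq, xc_pi, pf_rest (k := T) le_rfl (by linarith) le_rfl]

theorem pi_le_prof_arg (T : ℕ) (y : ℂ) : Real.pi ≤ prof T (Complex.arg y) := by
  have h := le_pf (T := T) (k := 0) (x := pos T y) (Nat.zero_le _) (by simpa using pos_nonneg T y)
  have e : (2 * ((0 : ℕ) : ℝ) + 1) * Real.pi = Real.pi := by simp
  rw [e] at h
  exact h

theorem prof_arg_le (T : ℕ) (y : ℂ) : prof T (Complex.arg y) ≤ (2 * T + 1) * Real.pi :=
  pf_le (T := T) (k := T) le_rfl (pos_le T y)

theorem pi_le_Vph (a : ℕ) (z : ℂ) : Real.pi ≤ Vph a z := pi_le_prof_arg _ _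

theorem Vph_le (a : ℕ) (z : ℂ) : Vph a z ≤ (2 * a + 3) * Real.pi := by
  refine (prof_arg_le (a + 1) z).trans (le_of_eq ?_)
  push_cast; ring

theorem Sph_le_top (T : ℕ) (y : ℂ) : Sph T y ≤ (2 * T - 1) * Real.pi := by
  have := prof_arg_le T y
  unfold Sph
  linarith

/-! ### `eI` -/

theorem eI_lip (x y : ℝ) : ‖eI x - eI y‖ ≤ |x - y| := norm_expI_sub_le x y

theorem eI_two_pi_nat (n : ℕ) : eI (2 * n * Real.pi) = 1 := eI_two_a_pi n

theorem eI_two_pi : eI (2 * Real.pi) = 1 := by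
  have := eI_two_pi_nat 1
  simpa using this

theorem eI_odd (n : ℕ) : eI ((2 * n + 1) * Real.pi) = -1 := by
  have e : (2 * (n : ℝ) + 1) * Real.pi = 2 * n * Real.pi + Real.pi := by ring
  rw [e, eI_add, eI_two_pi_nat, eI_pi, one_mul]

theorem eI_neg_pi : eI (-Real.pi) = -1 := by
  have e : eI (-Real.pi + 2 * Real.pi) = eI (-Real.pi) := by
    rw [eI_add, eI_two_pi, mul_one]
  rw [← e]
  have : -Real.pi + 2 * Real.pi = Real.pi := by ring
  rw [this, eI_pi]

theorem eI_sub_two_pi (x : ℝ) : eI (x - 2 * Real.pi) = eI x := by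
  have e : x = (x - 2 * Real.pi) + 2 * Real.pi := by ring
  conv_rhs => rw [e, eI_add, eI_two_pi, mul_one]

theorem eI_add_two_pi_nat (x : ℝ) (n : ℕ) : eI (x + 2 * n * Real.pi) = eI x := by
  rw [eI_add, eI_two_pi_nat, mul_one]

theorem eI_Sph (T : ℕ) (y : ℂ) : eI (Sph T y) = eI (prof T (Complex.arg y)) := eI_sub_two_pi _

/-! ### The window phase -/

theorem Lam_lip_left (a : ℕ) (S S' V : ℝ) : |Lam a S V - Lam a S' V| ≤ |S - S'| := by
  unfold Lam
  refine (abs_min_sub_min_le_max _ _ _ _).trans (max_le ?_ ?_)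
  · refine (abs_max_sub_max_le_max _ _ _ _).trans ?_
    rw [sub_self, abs_zero]
    refine max_le (abs_nonneg _) ?_
    refine (abs_min_sub_min_le_max _ _ _ _).trans ?_
    rw [sub_self, abs_zero]
    exact max_le le_rfl (abs_nonneg _)
  · rw [add_sub_add_right_eq_sub]

theorem Lam_lip_right (a : ℕ) (S V V' : ℝ) : |Lam a S V - Lam a S V'| ≤ |V - V'| := by
  unfold Lam
  refine (abs_min_sub_min_le_max _ _ _ _).trans ?_
  rw [sub_self, abs_zero]
  refine max_le ?_ (abs_nonneg _)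
  refine (abs_max_sub_max_le_max _ _ _ _).trans ?_
  rw [sub_sub_sub_cancel_right]
  refine max_le le_rfl ?_
  refine (abs_min_sub_min_le_max _ _ _ _).trans ?_
  rw [sub_self, abs_zero]
  refine max_le (abs_nonneg _) ?_
  refine (abs_min_sub_min_le_max _ _ _ _).trans ?_
  rw [sub_self, abs_zero]
  exact max_le le_rfl (abs_nonneg _)

/-- For large `S`. -/
theorem Lam_of_ge {a : ℕ} {S V : ℝ} (hS : (2 * a + 1) * Real.pi ≤ S)
    (hV : V ≤ (2 * a + 3) * Real.pi) : Lam a S V = min V ((2 * a + 1) * Real.pi) := by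
  have hpi := Real.pi_pos
  have ha : (0 : ℝ) ≤ a := by positivity
  unfold Lam
  rw [min_eq_right ((min_le_right _ _).trans hS), max_eq_right, min_eq_left]
  · refine (min_le_right _ _).trans (hS.trans ?_)
    have : 0 ≤ 2 * (a : ℝ) * Real.pi := by positivity
    linarith
  · exact le_min (by linarith) (by linarith)

theorem Lam_neg_pi {a : ℕ} {V : ℝ} (hV : Real.pi ≤ V) :
    Lam a (-Real.pi) V = min V ((2 * a + 1) * Real.pi) - 2 * Real.pi := by
  have hpi := Real.pi_pos
  have ha : (0 : ℝ) ≤ a := by positivity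
  unfold Lam
  rw [min_eq_left (le_min (by linarith) (by nlinarith)), max_eq_left (by linarith),
    ← min_sub_sub_right]
  congr 1
  ring

/-- At the cut of `y` the two values of the window phase agree. -/
theorem Lam_cutS {a : ℕ} {S V : ℝ} (hS : (2 * a + 1) * Real.pi ≤ S) (hV0 : Real.pi ≤ V)
    (hV : V ≤ (2 * a + 3) * Real.pi) : eI (Lam a (-Real.pi) V) = eI (Lam a S V) := by
  rw [Lam_of_ge hS hV, Lam_neg_pi hV0, eI_sub_two_pi]

end Vale.Agent.P268.T.RV
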