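import Vale.Agent.P268.T.H266.Lev

/-!
# P268, topological half, route V: assembly of the level step from its cases
-/

set_option linter.unusedSectionVars false

namespace Vale.Agent.P268.T.RV

open Set Filter Topology

variable {E : Type*} [NormedAddCommGroup E] [NormedSpace ℝ E]

/-- Assembly of a tame family of the form `B x + m t x.2 z` from its cases. -/
theorem tame_of_cases {s : Set ℝ} {L L' : ℝ} {B : E × ℂ → ℂ}
    (hB : Tame (univ : Set Unit) L (fun _ => B)) {m : ℝ → ℂ → ℂ → ℂ}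
    (hcont : ContinuousOn (fun p : ℝ × (ℂ × ℂ) => m p.1 p.2.1 p.2.2) (s ×ˢ univ))
    (hhom : ∀ t ∈ s, ∀ r : ℝ, 0 ≤ r → ∀ y z : ℂ, m t (r • y) (r • z) = r • m t y z)
    (hzero : ∀ t ∈ s, ∀ y, m t y 0 = 0)
    (hlip : ∀ t ∈ s, ∀ y z z' : ℂ, ‖m t y z - m t y z'‖ ≤ L' * ‖z - z'‖)
    (hold : ∀ t₀ ∈ s, ∀ x₀ : E × ℂ, x₀ ≠ 0 → 0 ≤ (B x₀).re →
      RegAt (s ×ˢ (univ : Set ℂ)) (fun (p : ℝ × ℂ) x => B x + m p.1 x.2 p.2) (t₀, 0) x₀)
    (hnew : ∀ t₀ ∈ s, ∀ (x₀ : E × ℂ) (z₀ : ℂ), z₀ ≠ 0 → 0 ≤ (B x₀ + m t₀ x₀.2 z₀).re →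
      RegAt s (fun t (p : (E × ℂ) × ℂ) => B p.1 + m t p.1.2 p.2) t₀ (x₀, z₀)) :
    Tame s L' (fun t (p : (E × ℂ) × ℂ) => B p.1 + m t p.1.2 p.2) where
  fam :=
    { cont := by
        have hBc : Continuous B := by
          have h1 := hB.fam.cont
          rw [univ_prod_univ, continuousOn_univ] at h1
          exact h1.comp (Continuous.prodMk_right ())
        have h2 : ContinuousOn (fun p : ℝ × ((E × ℂ) × ℂ) => (p.1, (p.2.1.2, p.2.2)))
            (s ×ˢ univ) :=
          (continuous_fst.prodMk ((continuous_snd.comp (continuous_fst.comp continuous_snd)).prodMk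
            (continuous_snd.comp continuous_snd))).continuousOn
        exact (hBc.comp (continuous_fst.comp continuous_snd)).continuousOn.add
          (hcont.comp h2 (fun p hp => ⟨hp.1, mem_univ _⟩))
      hom := fun t ht r hr p => by
        have h1 : B (r • p.1) = r • B p.1 := hB.fam.hom () (mem_univ _) r hr p.1
        show B (r • p.1) + m t (r • p.1.2) (r • p.2) = r • (B p.1 + m t p.1.2 p.2)
        rw [h1, hhom t ht r hr, smul_add]
      reg := by
        rintro t₀ ht₀ ⟨x₀, z₀⟩ hne h0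
        by_cases hz : z₀ = 0
        · subst hz
          have hx : x₀ ≠ 0 := by rintro rfl; exact hne rfl
          refine RegAt.fst ?_
          refine hold t₀ ht₀ x₀ hx ?_
          have h1 : 0 ≤ (B x₀ + m t₀ x₀.2 0).re := h0
          rwa [hzero t₀ ht₀, add_zero] at h1
        · exact hnew t₀ ht₀ x₀ z₀ hz h0 }
  lip := fun t ht x z z' => by
    show ‖B x + m t x.2 z - (B x + m t x.2 z')‖ ≤ L' * ‖z - z'‖
    rw [add_sub_add_left_eq_sub]
    exact hlip t ht x.2 z z'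
  zreg := fun t₀ ht₀ x₀ hx₀ h0 => by
    refine hold t₀ ht₀ x₀ hx₀ ?_
    have h1 : 0 ≤ (B x₀ + m t₀ x₀.2 0).re := h0
    rwa [hzero t₀ ht₀, add_zero] at h1

/-- The static end of a tame family. -/
theorem Tame.static {Θ : Type*} [TopologicalSpace Θ] {s : Set Θ} {L : ℝ} {F : Θ → E × ℂ → ℂ}
    (h : Tame s L F) {t : Θ} (ht : t ∈ s) : Tame (univ : Set Unit) L (fun _ => F t) :=
  Tame.param (s' := (univ : Set Unit)) h (φ := fun _ => t) continuousOn_const (fun _ _ => ht)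

end Vale.Agent.P268.T.RV
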