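import Vale.Agent.P268.T.H594.KinkProf
import Vale.Agent.P268.T.H266.Lev
import Mathlib.Analysis.Complex.Angle

/-!
# P268, topological half, route V: Lipschitz functions of the angle
-/

set_option linter.unusedSectionVars false

namespace Vale.Agent.P268.T.RV

open Set Filter Topology

section Circ

variable {V : Type*} [NormedAddCommGroup V]

/-- A Lipschitz function of the angle which closes up is Lipschitz for the distance of angles. -/
theorem circ_angle {f : ℝ → V} {K : ℝ}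
    (hf : ∀ θ ∈ Icc (-Real.pi) Real.pi, ∀ θ' ∈ Icc (-Real.pi) Real.pi,
      ‖f θ - f θ'‖ ≤ K * |θ - θ'|)
    (hcut : f (-Real.pi) = f Real.pi) {z z' : ℂ} (hz : z ≠ 0) (hz' : z' ≠ 0) :
    ‖f (Complex.arg z) - f (Complex.arg z')‖ ≤ K * InnerProductGeometry.angle z z' := by
  wlog h : Complex.arg z' ≤ Complex.arg z generalizing z z'
  · rw [norm_sub_rev, InnerProductGeometry.angle_comm]
    exact this hz' hz (le_of_not_ge h)
  have hpi := Real.pi_pos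
  have m1 : Complex.arg z ∈ Icc (-Real.pi) Real.pi :=
    ⟨(Complex.neg_pi_lt_arg z).le, Complex.arg_le_pi z⟩
  have m2 : Complex.arg z' ∈ Icc (-Real.pi) Real.pi :=
    ⟨(Complex.neg_pi_lt_arg z').le, Complex.arg_le_pi z'⟩
  have e0 : Complex.arg (z / z') = ((Complex.arg z - Complex.arg z' : ℝ) : Real.Angle).toReal := by
    have h1 := Complex.arg_div_coe_angle hz hz'
    rw [← Complex.arg_coe_angle_toReal_eq_arg (z / z'), h1, Real.Angle.coe_sub]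
  rw [Complex.angle_eq_abs_arg hz hz', e0]
  set δ := Complex.arg z - Complex.arg z' with hδ
  have hδ0 : 0 ≤ δ := by rw [hδ]; linarith
  rcases le_or_gt δ Real.pi with h1 | h1
  · rw [Real.Angle.abs_toReal_coe_eq_self_iff.mpr ⟨hδ0, h1⟩]
    refine (hf _ m1 _ m2).trans (le_of_eq ?_)
    rw [← hδ, abs_of_nonneg hδ0]
  · have h2 : δ ≤ 3 * Real.pi := by
      rw [hδ]
      linarith [m1.2, m2.1]
    rw [Real.Angle.toReal_coe_eq_self_sub_two_pi_iff.mpr ⟨h1, h2⟩]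
    have h3 : δ - 2 * Real.pi ≤ 0 := by rw [hδ]; linarith [m1.2, m2.1]
    rw [abs_of_nonpos h3]
    have a1 := hf _ m1 Real.pi ⟨by linarith, le_rfl⟩
    have a2 := hf (-Real.pi) ⟨le_rfl, by linarith⟩ _ m2
    rw [abs_of_nonpos (by linarith [m1.2])] at a1
    rw [abs_of_nonpos (by linarith [m2.1]), hcut] at a2
    have e : f (Complex.arg z) - f (Complex.arg z') =
        (f (Complex.arg z) - f Real.pi) + (f Real.pi - f (Complex.arg z')) := by abel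
    rw [e]
    refine (norm_add_le _ _).trans ((add_le_add a1 a2).trans (le_of_eq ?_))
    rw [hδ]; ring

theorem norm_normalize_sub_le {z z' : ℂ} (hz : z ≠ 0) (hz' : z' ≠ 0) :
    ‖z'‖ * ‖(‖z‖⁻¹ : ℝ) • z - (‖z'‖⁻¹ : ℝ) • z'‖ ≤ 2 * ‖z - z'‖ := by
  have h1 : 0 < ‖z‖ := norm_pos_iff.mpr hz
  have h2 : 0 < ‖z'‖ := norm_pos_iff.mpr hz'
  have e : ‖z'‖ * ‖(‖z‖⁻¹ : ℝ) • z - (‖z'‖⁻¹ : ℝ) • z'‖ =
      ‖(z - z') + ((‖z'‖ - ‖z‖) * ‖z‖⁻¹ : ℝ) • z‖ := by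
    rw [← norm_norm z', ← norm_smul, norm_norm, smul_sub, smul_smul, smul_smul,
      mul_inv_cancel₀ h2.ne', one_smul]
    congr 1
    have : (z - z') + ((‖z'‖ - ‖z‖) * ‖z‖⁻¹ : ℝ) • z =
        (‖z'‖ * ‖z‖⁻¹) • z - z' + (z - (‖z‖ * ‖z‖⁻¹) • z) := by
      rw [sub_mul, sub_smul]; abel
    rw [this, mul_inv_cancel₀ h1.ne', one_smul, sub_self, add_zero]
  rw [e]
  refine (norm_add_le _ _).trans ?_
  rw [norm_smul, norm_mul, norm_inv, norm_norm, mul_assoc, inv_mul_cancel₀ h1.ne', mul_one,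
    Real.norm_eq_abs]
  have := abs_norm_sub_norm_le z' z
  rw [norm_sub_rev z' z] at this
  linarith

theorem norm_mul_angle_le {z z' : ℂ} (hz : z ≠ 0) (hz' : z' ≠ 0) :
    ‖z'‖ * InnerProductGeometry.angle z z' ≤ Real.pi * ‖z - z'‖ := by
  have h1 : 0 < ‖z‖ := norm_pos_iff.mpr hz
  have h2 : 0 < ‖z'‖ := norm_pos_iff.mpr hz'
  have e : InnerProductGeometry.angle z z' =
      InnerProductGeometry.angle ((‖z‖⁻¹ : ℝ) • z) ((‖z'‖⁻¹ : ℝ) • z') := by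
    rw [InnerProductGeometry.angle_smul_left_of_pos _ _ (inv_pos.mpr h1),
      InnerProductGeometry.angle_smul_right_of_pos _ _ (inv_pos.mpr h2)]
  have n1 : ‖(‖z‖⁻¹ : ℝ) • z‖ = 1 := by
    rw [norm_smul, norm_inv, norm_norm, inv_mul_cancel₀ h1.ne']
  have n2 : ‖(‖z'‖⁻¹ : ℝ) • z'‖ = 1 := by
    rw [norm_smul, norm_inv, norm_norm, inv_mul_cancel₀ h2.ne']
  have h3 := Complex.angle_le_mul_norm_sub n1 n2
  rw [← e] at h3
  have h4 := norm_normalize_sub_le hz hz'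
  calc ‖z'‖ * InnerProductGeometry.angle z z'
      ≤ ‖z'‖ * (Real.pi / 2 * ‖(‖z‖⁻¹ : ℝ) • z - (‖z'‖⁻¹ : ℝ) • z'‖) :=
        mul_le_mul_of_nonneg_left h3 h2.le
    _ = Real.pi / 2 * (‖z'‖ * ‖(‖z‖⁻¹ : ℝ) • z - (‖z'‖⁻¹ : ℝ) • z'‖) := by ring
    _ ≤ Real.pi / 2 * (2 * ‖z - z'‖) := mul_le_mul_of_nonneg_left h4 (by positivity)
    _ = Real.pi * ‖z - z'‖ := by ring

/-- **Circle lemma.** -/
theorem circ_lip {f : ℝ → V} {K : ℝ} (hK : 0 ≤ K)
    (hf : ∀ θ ∈ Icc (-Real.pi) Real.pi, ∀ θ' ∈ Icc (-Real.pi) Real.pi,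
      ‖f θ - f θ'‖ ≤ K * |θ - θ'|)
    (hcut : f (-Real.pi) = f Real.pi) {z z' : ℂ} (hz : z ≠ 0) (hz' : z' ≠ 0) :
    ‖z'‖ * ‖f (Complex.arg z) - f (Complex.arg z')‖ ≤ Real.pi * K * ‖z - z'‖ := by
  have h1 := circ_angle hf hcut hz hz'
  have h2 := norm_mul_angle_le hz hz'
  calc ‖z'‖ * ‖f (Complex.arg z) - f (Complex.arg z')‖
      ≤ ‖z'‖ * (K * InnerProductGeometry.angle z z') :=
        mul_le_mul_of_nonneg_left h1 (norm_nonneg _)
    _ = K * (‖z'‖ * InnerProductGeometry.angle z z') := by ring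
    _ ≤ K * (Real.pi * ‖z - z'‖) := mul_le_mul_of_nonneg_left h2 hK
    _ = _ := by ring

end Circ

end Vale.Agent.P268.T.RV
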