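import Vale.Agent.P268.T.H594.Lift

/-!
# P268, topological half, route V: the triangular plot lemma

If the first order expansion of `F` along `exp ξ * z` is `(ξ.re P + ξ.im Q i) e₀` with
`P.re ≥ p₀ > 0`, `Q ≥ Q₀ > 0` (where `P`, `Q` may depend on everything), then `F` is regular.
-/

set_option linter.unusedSectionVars false

namespace Vale.Agent.P268.T

open Set Filter Topology

/-- Exponential plots in one complex variable. -/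
theorem isPlot_exp (a₁ a₂ z₀ : ℂ) :
    IsPlot (fun (c : ℂ) z => Complex.exp (cols a₁ a₂ c) * z)
      ((ContinuousLinearMap.mul ℝ ℂ z₀).comp (cols a₁ a₂)) z₀ := by
  intro ε hε
  obtain ⟨U1, hU1, δ1, hδ1, h1⟩ := exp_mul_est (a₁ := a₁) (a₂ := a₂) (y₀ := z₀) hε
  exact ⟨U1, hU1, δ1, hδ1, fun x hx c hc => h1 x hx c hc⟩

/-- The quadratic form estimate. -/
theorem tri_form {p q Q K p₀ p₁ Q₀ c₁ c₂ : ℝ} (hp₀ : 0 < p₀) (hp : p₀ ≤ p) (hq : |q| ≤ p₁)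
    (hQ : Q₀ ≤ Q) (hK : p₀ / 2 + p₁ ^ 2 / (2 * p₀) ≤ K * Q₀) (hK0 : 0 ≤ K) :
    p₀ / 2 * (c₁ ^ 2 + c₂ ^ 2) ≤ c₁ * (p * c₁) + c₂ * (q * c₁ + K * Q * c₂) := by
  have h1 : K * Q₀ ≤ K * Q := mul_le_mul_of_nonneg_left hQ hK0
  have h2 : |q * c₁ * c₂| ≤ p₀ / 2 * c₁ ^ 2 + p₁ ^ 2 / (2 * p₀) * c₂ ^ 2 := by
    rw [abs_mul, abs_mul]
    have h3 : |q| * |c₁| * |c₂| ≤ p₁ * |c₁| * |c₂| := by gcongr
    refine h3.trans ?_
    have e : p₀ / 2 * c₁ ^ 2 + p₁ ^ 2 / (2 * p₀) * c₂ ^ 2 - p₁ * |c₁| * |c₂| =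
        (p₀ * |c₁| - p₁ * |c₂|) ^ 2 / (2 * p₀) := by
      rw [← sq_abs c₁, ← sq_abs c₂]; field_simp; ring
    have : 0 ≤ (p₀ * |c₁| - p₁ * |c₂|) ^ 2 / (2 * p₀) := by positivity
    linarith
  have h4 := (abs_le.mp h2).1
  have h5 : (p₀ / 2 + p₁ ^ 2 / (2 * p₀)) * c₂ ^ 2 ≤ K * Q * c₂ ^ 2 :=
    mul_le_mul_of_nonneg_right (hK.trans h1) (sq_nonneg _)
  have h6 : p₀ * c₁ ^ 2 ≤ p * c₁ ^ 2 := mul_le_mul_of_nonneg_right hp (sq_nonneg _)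
  nlinarith

variable {T : Type*} [TopologicalSpace T]

/-- **Triangular plots.** -/
theorem RegAt.of_tri {s : Set T} {F : T → ℂ → ℂ} {t₀ : T} {z₀ : ℂ} (hF : LocLip s F t₀ z₀)
    {e₀ : ℂ} (he : ‖e₀‖ = 1) {Q₀ Q₁ p₀ p₁ : ℝ} (hQ₀ : 0 < Q₀) (hp₀ : 0 < p₀)
    (h : ∀ ε > 0, ∃ U ∈ 𝓝 z₀, ∃ δ > 0, ∀ᶠ t in 𝓝[s] t₀, ∀ z ∈ U, ∀ ξ : ℂ, ‖ξ‖ ≤ δ →
      ∃ (P : ℂ) (Q : ℝ), p₀ ≤ P.re ∧ ‖P‖ ≤ p₁ ∧ Q₀ ≤ Q ∧ Q ≤ Q₁ ∧
        ‖F t (Complex.exp ξ * z) - F t z - ((ξ.re : ℂ) * P + (ξ.im : ℂ) * Q * Complex.I) * e₀‖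
          ≤ ε * ‖ξ‖) : RegAt s F t₀ z₀ := by
  rcases eq_or_neBot (𝓝[s] t₀) with hbot | hne
  · refine RegAt.of_monotone (κ := 1) (Λ := 1) one_pos (0 : ℂ →L[ℝ] ℂ) ⟨univ, univ_mem, ?_⟩
    rw [hbot]; exact eventually_bot
  have hp₁ : 0 ≤ p₁ := by
    obtain ⟨U, hU, δ, hδ, hev⟩ := h 1 one_pos
    obtain ⟨t, ht⟩ := hev.exists
    obtain ⟨P, Q, h1, h2, -⟩ := ht z₀ (mem_of_mem_nhds hU) 0 (by simpa using hδ.le)
    exact (norm_nonneg _).trans h2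
  have hQ₁ : 0 ≤ Q₁ := by
    obtain ⟨U, hU, δ, hδ, hev⟩ := h 1 one_pos
    obtain ⟨t, ht⟩ := hev.exists
    obtain ⟨P, Q, h1, h2, h3, h4, -⟩ := ht z₀ (mem_of_mem_nhds hU) 0 (by simpa using hδ.le)
    exact (hQ₀.le.trans h3).trans h4
  set K : ℝ := (p₀ / 2 + p₁ ^ 2 / (2 * p₀)) / Q₀ with hK
  have hK0 : 0 < K := by positivity
  have hKQ : p₀ / 2 + p₁ ^ 2 / (2 * p₀) ≤ K * Q₀ := by rw [hK]; field_simp; exact le_refl _
  -- the plot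
  set f := starRingEnd ℂ e₀ with hf
  have hfe : f * e₀ = 1 := by
    rw [hf, ← Complex.normSq_eq_conj_mul_self, Complex.normSq_eq_norm_sq, he]; norm_num
  set a₁ : ℂ := (f.re : ℂ) + (K * f.im : ℝ) * Complex.I with ha₁
  set a₂ : ℂ := (-f.im : ℝ) + (K * f.re : ℝ) * Complex.I with ha₂
  have hcols : ∀ c : ℂ, (cols a₁ a₂ c).re = (f * c).re ∧ (cols a₁ a₂ c).im = K * (f * c).im := by
    intro c
    rw [cols_apply, ha₁, ha₂]
    constructor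
    · simp; ring
    · simp; ring
  have hfn : ‖f‖ = 1 := by rw [hf, RCLike.norm_conj]; exact he
  have hfc : ∀ c : ℂ, ‖f * c‖ = ‖c‖ := fun c => by rw [norm_mul, hfn, one_mul]
  have hξn : ∀ c : ℂ, ‖cols a₁ a₂ c‖ ≤ (1 + K) * ‖c‖ := by
    intro c
    obtain ⟨h1, h2⟩ := hcols c
    refine (Complex.norm_le_abs_re_add_abs_im _).trans ?_
    rw [h1, h2, abs_mul, abs_of_pos hK0]
    have h3 := Complex.abs_re_le_norm (f * c)
    have h4 := Complex.abs_im_le_norm (f * c)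
    rw [hfc] at h3 h4
    nlinarith
  refine RegAt.of_plot (κ := p₀ / 4) (Λ := p₀ / 4 + p₁ + K * Q₁) (by positivity)
    (isPlot_exp a₁ a₂ z₀) hF ?_
  obtain ⟨U, hU, δ, hδ, hev⟩ := h (p₀ / (4 * (1 + K))) (by positivity)
  refine ⟨U, hU, δ / (1 + K), by positivity, ?_⟩
  filter_upwards [hev] with t ht z hz c hc
  have hξ : ‖cols a₁ a₂ c‖ ≤ δ := by
    refine (hξn c).trans ?_
    rw [le_div_iff₀ (by positivity)] at hc
    linarith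
  obtain ⟨P, Q, h1, h2, h3, h4, h5⟩ := ht z hz _ hξ
  set ξ := cols a₁ a₂ c with hξd
  obtain ⟨hr, hi⟩ := hcols c
  rw [← hξd] at hr hi
  set M : ℂ := ((ξ.re : ℂ) * P + (ξ.im : ℂ) * Q * Complex.I) * e₀ with hM
  have hb : ‖F t (Complex.exp ξ * z) - F t z - M‖ ≤ p₀ / 4 * ‖c‖ := by
    refine h5.trans ?_
    calc p₀ / (4 * (1 + K)) * ‖ξ‖ ≤ p₀ / (4 * (1 + K)) * ((1 + K) * ‖c‖) :=
          mul_le_mul_of_nonneg_left (hξn c) (by positivity)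
      _ = _ := by field_simp
  have hin : inner ℝ M c = (f * c).re * (P.re * (f * c).re) +
      (f * c).im * (P.im * (f * c).re + K * Q * (f * c).im) := by
    have e1 : inner ℝ M c = (starRingEnd ℂ M * c).re := by
      rw [Complex.inner]
      ring_nf
    rw [e1]
    have e2 : starRingEnd ℂ M * c =
        ((ξ.re : ℂ) * starRingEnd ℂ P - (ξ.im : ℂ) * Q * Complex.I) * (f * c) := by
      rw [hM, hf]
      simp only [map_mul, map_add, Complex.conj_ofReal, Complex.conj_I]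
      ring
    rw [e2, hr, hi]
    simp
    ring
  have hlow : p₀ / 2 * ‖c‖ ^ 2 ≤ inner ℝ M c := by
    rw [hin]
    have e : ‖c‖ ^ 2 = (f * c).re ^ 2 + (f * c).im ^ 2 := by
      rw [← hfc c, ← Complex.normSq_eq_norm_sq, Complex.normSq_apply]; ring
    rw [e]
    exact tri_form hp₀ h1 ((Complex.abs_im_le_norm P).trans h2) h3 hKQ hK0.le
  have hMn : ‖M‖ ≤ (p₁ + K * Q₁) * ‖c‖ := by
    rw [hM, norm_mul, he, mul_one]
    refine (norm_add_le _ _).trans ?_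
    rw [norm_mul, norm_mul, norm_mul, Complex.norm_I, mul_one, Complex.norm_real,
      Complex.norm_real, Complex.norm_real, hr, hi, Real.norm_eq_abs, Real.norm_eq_abs,
      Real.norm_eq_abs, abs_mul, abs_of_pos hK0, abs_of_nonneg (hQ₀.le.trans h3)]
    have h6 := Complex.abs_re_le_norm (f * c)
    have h7 := Complex.abs_im_le_norm (f * c)
    rw [hfc] at h6 h7
    have h8 : |(f * c).re| * ‖P‖ ≤ ‖c‖ * p₁ := mul_le_mul h6 h2 (norm_nonneg _) (norm_nonneg _)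
    have h9 : K * |(f * c).im| * Q ≤ K * ‖c‖ * Q₁ :=
      mul_le_mul (mul_le_mul_of_nonneg_left h7 hK0.le) h4 (hQ₀.le.trans h3) (by positivity)
    linarith
  set D := F t (Complex.exp ξ * z) - F t z with hD
  have e : D = (D - M) + M := by ring
  constructor
  · rw [e, inner_add_left]
    have h6 : |inner ℝ (D - M) c| ≤ p₀ / 4 * ‖c‖ * ‖c‖ :=
      (abs_real_inner_le_norm _ _).trans (mul_le_mul_of_nonneg_right hb (norm_nonneg _))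
    have h7 := (abs_le.mp h6).1
    nlinarith
  · rw [e]
    refine (norm_add_le _ _).trans ?_
    nlinarith

end Vale.Agent.P268.T
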